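import Vale.Agent.P207.N4.Dim
import Vale.Agent.P207.N4.H747.Fermi
import Vale.Agent.P207.N4.H76.Ext

/-!
# P207, N4: the metric in Fermi coordinates, every dimension

`GG g (x, z)`: the metric of `M` pulled back by the Fermi map `z ↦ Fp g (x, z)`. It is smooth along
plots, the identity on the axis, and positive definite on a uniform tube. (helper747)
-/

open scoped Manifold ContDiff ENNReal Topology
open Bundle MeasureTheory Set Filter Topology

noncomputable section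

set_option maxSynthPendingDepth 3
set_option linter.unusedSectionVars false

namespace Vale.Agent.P207.N4.H747

open Vale.Agent.P207.N3 Vale.Agent.P207.N3.H747

variable [Dim]

open Vale.Agent.P255 (RMetric coefIn Gam Riem IsGeo Metric Npc ExpSys toMetric geo expg cc trans IsGeodesic coefL chris chrisB IsMetricOn covD)
open Vale.Agent.P207.Q Vale.Agent.P207.Q.Fl
open Vale.Agent.P207.N4.H76 (pk tl)

section PSmMore

variable {n : ℕ} {M : Type} [TopologicalSpace M] [ChartedSpace (EV n) M]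
  [IsManifold 𝓘(ℝ, EV n) ∞ M] {g : RMetric (EV n) M} [Nonempty (Fr g)] [NeZero n]

variable {E : Type} [NormedAddCommGroup E] [NormedSpace ℝ E] [FiniteDimensional ℝ E]
  {W W' W'' : Type} [NormedAddCommGroup W] [NormedSpace ℝ W] [NormedAddCommGroup W']
  [NormedSpace ℝ W'] [NormedAddCommGroup W''] [NormedSpace ℝ W'']

theorem PSm.flip {A : Fr g × E → W →L[ℝ] W' →L[ℝ] W''} {p : Fr g × E} (h : PSm A p) :
    PSm (fun q => (A q).flip) p :=
  h.comp (F := fun L : W →L[ℝ] W' →L[ℝ] W'' => L.flip) (Sm.of_contDiff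
    (ContinuousLinearMap.flipₗᵢ ℝ W W' W'').toContinuousLinearEquiv.contDiff _)

/-- change of the linear variable by a smooth map -/
theorem PSm.pull {E' : Type} [NormedAddCommGroup E'] [NormedSpace ℝ E'] [FiniteDimensional ℝ E']
    {H : Fr g × E → W} {φ : E' → E} {x : Fr g} {e : E'} (h : PSm H (x, φ e)) (hφ : Sm φ e) :
    PSm (fun q : Fr g × E' => H (q.1, φ q.2)) (x, e) := by
  intro V _ _ _ u v huv hu
  refine h V (fun w => ((u w).1, φ (u w).2)) v (by rw [huv]) ⟨hu.1, ?_⟩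
  have h2 : Sm φ ((fun w => (u w).2) v) := by
    simp only [huv]
    exact hφ
  exact Sm.comp (f := φ) (g := fun w => (u w).2) h2 hu.2

end PSmMore

variable {M : Type} [TopologicalSpace M] [ChartedSpace (EV (Dim.m + 1)) M] [IsManifold 𝓘(ℝ, EV (Dim.m + 1)) ∞ M]
  (g : RMetric (EV (Dim.m + 1)) M) [Nonempty (Fr g)] [CompactSpace M] [T2Space M]

/-- the pulled back metric, with the chart at `a` -/
def GH (a : M) (q : Fr g × EV (Dim.m + 1)) : EV (Dim.m + 1) →L[ℝ] EV (Dim.m + 1) →L[ℝ] ℝ :=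
  (((((mt g).coef a (Fc g a q)).comp (DF g a q)).flip).comp (DF g a q)).flip

/-- **the pulled back metric** -/
def GG (q : Fr g × EV (Dim.m + 1)) : EV (Dim.m + 1) →L[ℝ] EV (Dim.m + 1) →L[ℝ] ℝ := GH g (Fp g q) q

variable {g}

theorem GH_apply (a : M) (q : Fr g × EV (Dim.m + 1)) (v w : EV (Dim.m + 1)) :
    GH g a q v w = (mt g).coef a (Fc g a q) (DF g a q v) (DF g a q w) := rfl

theorem mem_target {a : M} {q : Fr g × EV (Dim.m + 1)} (h : q ∈ src g a) :
    Fc g a q ∈ (chartAt (EV (Dim.m + 1)) a).target := (chartAt (EV (Dim.m + 1)) a).map_source h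

theorem symm_Fc {a : M} {q : Fr g × EV (Dim.m + 1)} (h : q ∈ src g a) :
    (chartAt (EV (Dim.m + 1)) a).symm (Fc g a q) = Fp g q := (chartAt (EV (Dim.m + 1)) a).left_inv h

theorem Fc_trans {a b : M} {q : Fr g × EV (Dim.m + 1)} (h : q ∈ src g a) :
    Fc g b q = trans (EV (Dim.m + 1)) a b (Fc g a q) := by
  unfold P255.trans
  rw [symm_Fc h]
  rfl

theorem DF_trans {a b : M} {q : Fr g × EV (Dim.m + 1)} (h : q ∈ src g a) (h' : q ∈ src g b) :
    DF g b q = (fderiv ℝ (trans (EV (Dim.m + 1)) a b) (Fc g a q)).comp (DF g a q) := by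
  obtain ⟨x, z⟩ := q
  have h1 : (fun z => Fc g b (x, z)) =ᶠ[𝓝 z] fun z => trans (EV (Dim.m + 1)) a b (Fc g a (x, z)) := by
    have h2 : ContinuousAt (fun z : EV (Dim.m + 1) => ((x, z) : Fr g × EV (Dim.m + 1))) z := by fun_prop
    filter_upwards [h2.eventually ((isOpen_src a).mem_nhds h)] with w hw
    exact Fc_trans hw
  have h2 := (P255.contDiffAt_trans a b (mem_target h) (by rw [symm_Fc h]; exact h')).differentiableAt
    (by simp)
  have h3 : HasFDerivAt (fun z => trans (EV (Dim.m + 1)) a b (Fc g a (x, z))) _ z :=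
    HasFDerivAt.comp (g := trans (EV (Dim.m + 1)) a b) (f := fun z => Fc g a (x, z)) z h2.hasFDerivAt
      (hasFDerivAt_Fc h)
  have h4 := h3.congr_of_eventuallyEq h1
  exact h4.fderiv

theorem GH_trans {a b : M} {q : Fr g × EV (Dim.m + 1)} (h : q ∈ src g a) (h' : q ∈ src g b) :
    GH g a q = GH g b q := by
  ext v w
  rw [GH_apply, GH_apply, DF_trans h h', Fc_trans (b := b) h]
  exact ((mt g).compat a b (Fc g a q) (mem_target h) (by rw [symm_Fc h]; exact h') _ _).symm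

theorem GG_eq {a : M} {q : Fr g × EV (Dim.m + 1)} (h : q ∈ src g a) : GG g q = GH g a q :=
  GH_trans (mem_src_self q) h

theorem GG_apply {a : M} {q : Fr g × EV (Dim.m + 1)} (h : q ∈ src g a) (v w : EV (Dim.m + 1)) :
    GG g q v w = (mt g).coef a (Fc g a q) (DF g a q v) (DF g a q w) := by
  rw [GG_eq h, GH_apply]

theorem psm_GH {a : M} {p : Fr g × EV (Dim.m + 1)} (hp : p ∈ src g a) : PSm (GH g a) p := by
  have h1 : PSm (fun q => (mt g).coef a (Fc g a q)) p :=
    (psm_Fc hp).comp (F := (mt g).coef a) (Sm.of_contDiffOn ((mt g).smooth a)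
      (chartAt (EV (Dim.m + 1)) a).open_target (mem_target hp))
  exact ((h1.clm_comp (psm_DF hp)).flip.clm_comp (psm_DF hp)).flip

theorem psm_GG (p : Fr g × EV (Dim.m + 1)) : PSm (GG g) p := by
  refine (psm_GH (mem_src_self p)).congr ?_
  filter_upwards [(isOpen_src (Fp g p)).mem_nhds (mem_src_self p)] with q hq
  exact GG_eq hq

theorem continuous_GG : Continuous (GG g) :=
  continuous_iff_continuousAt.2 fun p =>
    continuousAt_of_psm isOpen_univ (mem_univ p) fun q _ => psm_GG q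

theorem Fp_shift (x : Fr g) (z : EV (Dim.m + 1)) (s : ℝ) :
    Fp g (x, z + EuclideanSpace.single 0 s) = Fp g (fl g s x, z) := by
  unfold Fp
  rw [Lf_shift]

theorem Fc_shift (a : M) (x : Fr g) (z : EV (Dim.m + 1)) (s : ℝ) :
    Fc g a (x, z + EuclideanSpace.single 0 s) = Fc g a (fl g s x, z) := by
  unfold Fc Lc
  rw [Lf_shift]

/-- translation along the axis -/
theorem GG_shift (x : Fr g) (z : EV (Dim.m + 1)) (s : ℝ) :
    GG g (x, z + EuclideanSpace.single 0 s) = GG g (fl g s x, z) := by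
  ext v w
  unfold GG
  rw [GH_apply, GH_apply, Fp_shift, Fc_shift, DF_shift]

theorem pk_eq (s : ℝ) (u : E2) : (pk s u : EV (Dim.m + 1)) = pk 0 u + EuclideanSpace.single 0 s := by
  ext i
  refine Fin.cases ?_ (fun j => ?_) i
  · simp [pk]
  · simp [pk, Fin.succ_ne_zero]

theorem Lf_pk (x : Fr g) (s : ℝ) (u : E2) : Lf g (x, pk s u) = Lf g (fl g s x, pk 0 u) := by
  rw [pk_eq, Lf_shift]

theorem Fp_pk (x : Fr g) (s : ℝ) (u : E2) : Fp g (x, pk s u) = Fp g (fl g s x, pk 0 u) := by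
  rw [pk_eq, Fp_shift]

theorem GG_pk (x : Fr g) (s : ℝ) (u : E2) : GG g (x, pk s u) = GG g (fl g s x, pk 0 u) := by
  rw [pk_eq, GG_shift]

/-- **the metric is the identity on the axis** -/
theorem GG_zero (x : Fr g) (v w : EV (Dim.m + 1)) : GG g (x, 0) v w = inner ℝ v w := by
  have hx : x.pt ∈ (chartAt (EV (Dim.m + 1)) x.pt).source := mem_chart_source _ _
  have h0 : ((x, 0) : Fr g × EV (Dim.m + 1)) ∈ src g x.pt := by
    have h1 : Fp g (x, 0) = x.pt := by rw [Fp, Lf_zero]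
    simp only [src, mem_ofPred_eq, h1]
    exact hx
  rw [GG_apply h0, DF_zero hx, DF_zero hx]
  have h1 : Fc g x.pt (x, 0) = (chF x.pt x.1).1 := by
    unfold Fc Lc
    rw [Lf_zero]
  rw [h1]
  have h2 := orth_chFg g x x.pt hx
  have h3 : ∀ i j, (mt g).coef x.pt (chF x.pt x.1).1 ((chF x.pt x.1).2 i) ((chF x.pt x.1).2 j) =
    if i = j then 1 else 0 := h2
  simp only [map_sum, map_smul, sum_apply, smul_apply, h3, smul_eq_mul]
  rw [EuclideanSpace.inner_eq_star_dotProduct]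
  simp [dotProduct, mul_comm]

/-- the inner product as a bilinear map -/
def ipB (V : Type) [NormedAddCommGroup V] [InnerProductSpace ℝ V] : V →L[ℝ] V →L[ℝ] ℝ := innerSL ℝ

theorem ipB_apply {V : Type} [NormedAddCommGroup V] [InnerProductSpace ℝ V] (v w : V) :
    ipB V v w = inner ℝ v w := rfl

theorem GG_zero' (x : Fr g) : GG g (x, 0) = ipB (EV (Dim.m + 1)) := by
  ext1 v
  ext1 w
  rw [GG_zero, ipB_apply]

theorem pk_zero_zero : (pk 0 0 : EV (Dim.m + 1)) = 0 := by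
  ext i
  refine Fin.cases ?_ (fun j => ?_) i <;> simp [pk]

/-- a bilinear form close to the inner product -/
theorem close_inner {V : Type} [NormedAddCommGroup V] [InnerProductSpace ℝ V]
    {L : V →L[ℝ] V →L[ℝ] ℝ} (h : ‖L - ipB V‖ < 1 / 2) (v : V) :
    1 / 2 * ‖v‖ ^ 2 ≤ L v v ∧ L v v ≤ 2 * ‖v‖ ^ 2 := by
  have h5 := ((L - ipB V) v).le_opNorm v
  have h6 := (L - ipB V).le_opNorm v
  have h7 : ((L - ipB V) v) v = L v v - ‖v‖ ^ 2 := by
    rw [sub_apply, sub_apply, ipB_apply, real_inner_self_eq_norm_sq]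
  rw [h7, Real.norm_eq_abs] at h5
  have h4 : |L v v - ‖v‖ ^ 2| ≤ 1 / 2 * ‖v‖ ^ 2 := by
    calc _ ≤ ‖(L - ipB V) v‖ * ‖v‖ := h5
      _ ≤ (‖L - ipB V‖ * ‖v‖) * ‖v‖ := by gcongr
      _ ≤ (1 / 2 * ‖v‖) * ‖v‖ := by gcongr
      _ = _ := by ring
  have h8 := abs_le.1 h4
  constructor <;> linarith [h8.1, h8.2, sq_nonneg ‖v‖]

/-- uniform neighbourhoods of the origin for continuous functions on compact × plane -/
theorem exists_unif {K : Type} [TopologicalSpace K] [CompactSpace K] {L : Type}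
    [SeminormedAddCommGroup L] {G : K → EV (Dim.m + 1) → L} (hG : Continuous fun q : K × EV (Dim.m + 1) => G q.1 q.2)
    {c : L} (h0 : ∀ x, G x 0 = c) {ε : ℝ} (hε : 0 < ε) :
    ∃ ρ > 0, ∀ (x : K) (u : E2), ‖u‖ < ρ → ‖G x (pk 0 u) - c‖ < ε := by
  have hpk : Continuous fun q : K × E2 => (pk 0 q.2 : EV (Dim.m + 1)) :=
    H76.continuous_pk.comp (continuous_const.prodMk continuous_snd)
  have h0' : Continuous fun q : K × E2 => G q.1 (pk 0 q.2) :=
    hG.comp (continuous_fst.prodMk hpk)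
  have h1 : IsOpen {q : K × E2 | ‖G q.1 (pk 0 q.2) - c‖ < ε} :=
    isOpen_lt (Continuous.norm (h0'.sub continuous_const)) continuous_const
  have h2 : (univ : Set K) ×ˢ ({0} : Set E2) ⊆
      {q : K × E2 | ‖G q.1 (pk 0 q.2) - c‖ < ε} := by
    rintro ⟨x, u⟩ ⟨-, hu⟩
    obtain rfl : u = 0 := hu
    rw [mem_ofPred_eq]
    simp only [pk_zero_zero, h0, sub_self, norm_zero]
    exact hε
  obtain ⟨A, B, hA, hB, hAu, hB0, hAB⟩ := generalized_tube_lemma isCompact_univ
    isCompact_singleton h1 h2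
  obtain ⟨ρ, hρ, hρB⟩ := Metric.isOpen_iff.1 hB 0 (hB0 rfl)
  refine ⟨ρ, hρ, fun x u hu => ?_⟩
  exact hAB (show (x, u) ∈ A ×ˢ B from ⟨hAu (mem_univ x), hρB (by simpa using hu)⟩)
/-- a uniform tube in which the metric is close to the identity -/
theorem exists_tube' : ∃ ρ > 0, ∀ (x : Fr g) (u : E2), ‖u‖ < ρ →
    ‖GG g (x, pk 0 u) - ipB (EV (Dim.m + 1))‖ < 1 / 2 :=
  exists_unif (G := fun x z => GG g (x, z)) continuous_GG GG_zero' one_half_pos

/-- **a uniform tube in which the metric is positive definite** -/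
theorem exists_tube : ∃ ρ > 0, ∀ (x : Fr g) (s : ℝ) (u : E2), ‖u‖ < ρ → ∀ v : EV (Dim.m + 1),
    1 / 2 * ‖v‖ ^ 2 ≤ GG g (x, pk s u) v v ∧ GG g (x, pk s u) v v ≤ 2 * ‖v‖ ^ 2 := by
  obtain ⟨ρ, hρ, h⟩ := exists_tube' (g := g)
  refine ⟨ρ, hρ, fun x s u hu v => ?_⟩
  rw [GG_pk]
  exact close_inner (h _ u hu) v

theorem GG_symm (q : Fr g × EV (Dim.m + 1)) (v w : EV (Dim.m + 1)) : GG g q v w = GG g q w v := by
  rw [GG_apply (mem_src_self q), GG_apply (mem_src_self q)]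
  exact (mt g).symm _ _ (mem_target (mem_src_self q)) _ _

/-- the tube of radius `ρ` -/
def tube (ρ : ℝ) : Set (EV (Dim.m + 1)) := {z | ‖tl z‖ < ρ}

theorem isOpen_tube (ρ : ℝ) : IsOpen (tube ρ) :=
  isOpen_lt (H76.continuous_tl.norm) continuous_const

/-- `ρ` is a radius of positivity -/
def TubeR (g : RMetric (EV (Dim.m + 1)) M) [Nonempty (Fr g)] (ρ : ℝ) : Prop :=
  0 < ρ ∧ ∀ (x : Fr g) (s : ℝ) (u : E2), ‖u‖ < ρ → ∀ v : EV (Dim.m + 1),
    1 / 2 * ‖v‖ ^ 2 ≤ GG g (x, pk s u) v v ∧ GG g (x, pk s u) v v ≤ 2 * ‖v‖ ^ 2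

theorem exists_tubeR : ∃ ρ, TubeR g ρ := by
  obtain ⟨ρ, h1, h2⟩ := exists_tube (g := g)
  exact ⟨ρ, h1, h2⟩

theorem TubeR.bound {ρ : ℝ} (h : TubeR g ρ) (x : Fr g) {z : EV (Dim.m + 1)} (hz : z ∈ tube ρ) (v : EV (Dim.m + 1)) :
    1 / 2 * ‖v‖ ^ 2 ≤ GG g (x, z) v v ∧ GG g (x, z) v v ≤ 2 * ‖v‖ ^ 2 := by
  have h1 := h.2 x (z 0) (tl z) hz v
  rwa [H76.pk_tl] at h1

theorem TubeR.isMetricOn {ρ : ℝ} (h : TubeR g ρ) (x : Fr g) :
    IsMetricOn (fun z => GG g (x, z)) (tube ρ) where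
  isOpen := isOpen_tube ρ
  smooth := fun z _ => ((psm_GG (x, z)).slice).contDiffAt.contDiffWithinAt
  symm := fun z _ v w => GG_symm _ v w
  pos := fun z hz v hv => by
    have h1 := (h.bound x hz v).1
    have h2 : 0 < ‖v‖ := norm_pos_iff.2 hv
    have h3 : 0 < 1 / 2 * ‖v‖ ^ 2 := by positivity
    linarith

/-- the Fermi map is an immersion in the tube -/
theorem TubeR.DF_injective {ρ : ℝ} (h : TubeR g ρ) {x : Fr g} {z : EV (Dim.m + 1)} (hz : z ∈ tube ρ)
    {a : M} (ha : (x, z) ∈ src g a) : Function.Injective (DF g a (x, z)) := by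
  rw [injective_iff_map_eq_zero]
  intro v hv
  by_contra hne
  have h1 := (h.isMetricOn x).pos z hz v hne
  rw [GG_apply ha, hv] at h1
  simp at h1

/-- the isometry property, in the form used for the changes of coordinates -/
theorem eventually_iso {x : Fr g} {z : EV (Dim.m + 1)} {a : M} (ha : (x, z) ∈ src g a) :
    ∀ᶠ w in 𝓝 z, ∀ v v', (mt g).coef a (Fc g a (x, w))
      (fderiv ℝ (fun w => Fc g a (x, w)) w v) (fderiv ℝ (fun w => Fc g a (x, w)) w v') =
      GG g (x, w) v v' := by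
  have h2 : ContinuousAt (fun z : EV (Dim.m + 1) => ((x, z) : Fr g × EV (Dim.m + 1))) z := by fun_prop
  filter_upwards [h2.eventually ((isOpen_src a).mem_nhds ha)] with w hw v v'
  exact (GG_apply hw v v').symm

end Vale.Agent.P207.N4.H747
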