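import Vale.Agent.P207.N4.Dim
import Vale.Agent.P207.N4.H747.PullM

/-!
# P207, N4: Christoffel symbols and the geodesic equation in Fermi coordinates, every dimension

`CH g (x, z)`: Christoffel symbols of the pulled back metric. `ff g x (u, p)`: the right side of the
geodesic equation `u'' = f (φ_s x) (u, u')` for the graphs `s ↦ (s, u s)`. `jc_ff`: it is a family of
smooth functions with jointly continuous derivatives. `pregeo`: its solutions are pregeodesics.
(helper747)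
-/

open scoped Manifold ContDiff ENNReal Topology
open Bundle MeasureTheory Set Filter Topology

noncomputable section

set_option maxSynthPendingDepth 3
set_option linter.unusedSectionVars false

namespace Vale.Agent.P207.N4.H747

open Vale.Agent.P207.N3 Vale.Agent.P207.N3.H747

variable [Dim]

open Vale.Agent.P255 (RMetric coefIn Gam Riem IsGeo Metric Npc ExpSys toMetric geo expg cc trans IsGeodesic coefL chris chrisB IsMetricOn covD chrisB_apply)
open Vale.Agent.P207.Q Vale.Agent.P207.Q.Fl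
open Vale.Agent.P207.N4.H76 (pk tl)

variable {M : Type} [TopologicalSpace M] [ChartedSpace (EV (Dim.m + 1)) M] [IsManifold 𝓘(ℝ, EV (Dim.m + 1)) ∞ M]
  (g : RMetric (EV (Dim.m + 1)) M) [Nonempty (Fr g)] [CompactSpace M] [T2Space M]

/-- the Christoffel symbols in Fermi coordinates -/
def CH (q : Fr g × EV (Dim.m + 1)) : EV (Dim.m + 1) →L[ℝ] EV (Dim.m + 1) →L[ℝ] EV (Dim.m + 1) := chrisB (fun z => GG g (q.1, z)) q.2

variable {g}

theorem sm_inverse {V V' : Type} [NormedAddCommGroup V] [NormedSpace ℝ V] [CompleteSpace V]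
    [NormedAddCommGroup V'] [NormedSpace ℝ V'] {A : V →L[ℝ] V'} (h : A.IsInvertible) :
    Sm (fun A : V →L[ℝ] V' => A.inverse) A := by
  have hU : IsOpen {A : V →L[ℝ] V' | A.IsInvertible} :=
    ContinuousLinearEquiv.isOpen (𝕜 := ℝ) (E := V) (F := V')
  refine Sm.of_contDiffOn (U := {A : V →L[ℝ] V' | A.IsInvertible}) (fun A hA => ?_) hU h
  obtain ⟨e, rfl⟩ := hA
  exact (contDiffAt_map_inverse e).contDiffWithinAt

theorem contDiff_kos {E : Type} [NormedAddCommGroup E] [NormedSpace ℝ E] :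
    ContDiff ℝ ∞ (fun D : E →L[ℝ] E →L[ℝ] E →L[ℝ] ℝ => ((1 / 2 : ℝ) • (D + D.flip
      - (ContinuousLinearMap.flipₗᵢ ℝ E E ℝ).toContinuousLinearEquiv.toContinuousLinearMap ∘L
        D.flip))) := by
  have h1 : ContDiff ℝ ∞ (fun D : E →L[ℝ] E →L[ℝ] E →L[ℝ] ℝ => D.flip) :=
    (ContinuousLinearMap.flipₗᵢ ℝ E E (E →L[ℝ] ℝ)).toContinuousLinearEquiv.contDiff
  exact ((contDiff_id.add h1).sub (contDiff_const.clm_comp h1)).const_smul (1 / 2 : ℝ)

theorem contDiff_raise {E : Type} [NormedAddCommGroup E] [NormedSpace ℝ E] :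
    ContDiff ℝ ∞ (fun q : ((E →L[ℝ] ℝ) →L[ℝ] E) × (E →L[ℝ] E →L[ℝ] E →L[ℝ] ℝ) =>
      (ContinuousLinearMap.compL ℝ E (E →L[ℝ] ℝ) E q.1) ∘L q.2) :=
  ((ContinuousLinearMap.compL ℝ E (E →L[ℝ] ℝ) E).contDiff.comp contDiff_fst).clm_comp contDiff_snd

theorem psm_CH {ρ : ℝ} (h : TubeR g ρ) {p : Fr g × EV (Dim.m + 1)} (hp : p.2 ∈ tube ρ) : PSm (CH g) p := by
  have h1 : PSm (fun q => (GG g q).inverse) p :=
    (psm_GG p).comp (F := fun A => A.inverse) (sm_inverse ((h.isMetricOn p.1).isInvertible hp))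
  have h2 : PSm (fun q : Fr g × EV (Dim.m + 1) => fderiv ℝ (fun z => GG g (q.1, z)) q.2) p :=
    (psm_GG p).fderiv
  have h5 := h2.comp (Sm.of_contDiff contDiff_kos _)
  exact (h1.prodMk h5).comp (Sm.of_contDiff contDiff_raise _)

theorem chrisB_translate {E : Type} [NormedAddCommGroup E] [NormedSpace ℝ E]
    (G : E → E →L[ℝ] E →L[ℝ] ℝ) (u c : E) :
    chrisB (fun z => G (z + c)) u = chrisB G (u + c) := by
  unfold P255.chrisB
  rw [fderiv_comp_add_right (f := G)]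

theorem CH_pk (x : Fr g) (s : ℝ) (u : E2) : CH g (x, pk s u) = CH g (fl g s x, pk 0 u) := by
  unfold CH
  have h1 : (fun z => GG g (fl g s x, z)) = fun z => GG g (x, z + EuclideanSpace.single 0 s) := by
    funext z
    rw [GG_shift]
  simp only [h1]
  rw [chrisB_translate (fun z => GG g (x, z)), ← pk_eq]

theorem CH_apply (q : Fr g × EV (Dim.m + 1)) (v w : EV (Dim.m + 1)) :
    CH g q v w = chris (fun z => GG g (q.1, z)) q.2 v w := chrisB_apply _ _ _ _

/-- the transformation rule of the Christoffel symbols -/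
theorem CH_trans {ρ : ℝ} (h : TubeR g ρ) {x : Fr g} {z : EV (Dim.m + 1)} (hz : z ∈ tube ρ) {a : M}
    (ha : (x, z) ∈ src g a) (v w : EV (Dim.m + 1)) :
    DF g a (x, z) (CH g (x, z) v w) =
      chris ((mt g).coef a) (Fc g a (x, z)) (DF g a (x, z) v) (DF g a (x, z) w) +
        fderiv ℝ (fun z => DF g a (x, z)) z v w := by
  rw [CH_apply]
  exact (h.isMetricOn x).chris_trans ((mt g).isMetricOn a) hz (mem_target ha)
    (sm_Fc ha).contDiffAt (eventually_iso ha) v w

theorem sm_DF {x : Fr g} {z : EV (Dim.m + 1)} {a : M} (ha : (x, z) ∈ src g a) :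
    Sm (fun z => DF g a (x, z)) z := (psm_DF ha).slice

/-! ### the right side of the geodesic equation -/

variable (g)

/-- the right side of the geodesic equation for graphs in Fermi coordinates -/
def ff (x : Fr g) (p : E2 × E2) : E2 :=
  - tl (CH g (x, pk 0 p.1) (pk 1 p.2) (pk 1 p.2)) +
    (CH g (x, pk 0 p.1) (pk 1 p.2) (pk 1 p.2)) 0 • p.2

variable {g}

/-- `tl` as a continuous linear map -/
def tlC : EV (Dim.m + 1) →L[ℝ] E2 := LinearMap.toContinuousLinearMap H76.tlL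

theorem tlC_apply (v : EV (Dim.m + 1)) : tlC v = tl v := rfl

/-- `pk` as a continuous linear map -/
def pkC : (ℝ × E2) →L[ℝ] EV (Dim.m + 1) := LinearMap.toContinuousLinearMap H76.pkL

theorem pkC_apply (p : ℝ × E2) : pkC p = pk p.1 p.2 := rfl

theorem contDiff_pk' {E : Type} [NormedAddCommGroup E] [NormedSpace ℝ E] {a : E → ℝ} {b : E → E2}
    (ha : ContDiff ℝ ∞ a) (hb : ContDiff ℝ ∞ b) : ContDiff ℝ ∞ fun e => (pk (a e) (b e) : EV (Dim.m + 1)) :=
  pkC.contDiff.comp (ha.prodMk hb)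

theorem psm_ff {ρ : ℝ} (h : TubeR g ρ) {q : Fr g × (E2 × E2)} (hq : ‖q.2.1‖ < ρ) :
    PSm (fun q : Fr g × (E2 × E2) => ff g q.1 q.2) q := by
  obtain ⟨x, u, p⟩ := q
  have hz : (pk 0 u : EV (Dim.m + 1)) ∈ tube ρ := by
    change ‖tl (pk 0 u)‖ < ρ
    rw [H76.tl_pk]
    exact hq
  have h1 : PSm (fun q : Fr g × (E2 × E2) => CH g (q.1, pk 0 q.2.1)) (x, (u, p)) :=
    PSm.pull (H := CH g) (φ := fun e : E2 × E2 => (pk 0 e.1 : EV (Dim.m + 1))) (psm_CH h hz)
      (Sm.of_contDiff (contDiff_pk' contDiff_const contDiff_fst) _)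
  have h2 : PSm (fun q : Fr g × (E2 × E2) => (pk 1 q.2.2 : EV (Dim.m + 1))) (x, (u, p)) :=
    (psm_snd _).comp (F := fun e : E2 × E2 => (pk 1 e.2 : EV (Dim.m + 1)))
      (Sm.of_contDiff (contDiff_pk' contDiff_const contDiff_snd) _)
  have h3 := (h1.clm_apply h2).clm_apply h2
  have h4 : PSm (fun q : Fr g × (E2 × E2) => q.2.2) (x, (u, p)) := (psm_snd _).snd
  exact ((h3.clm tlC).neg).add ((h3.clm (EuclideanSpace.proj (𝕜 := ℝ) (0 : Fin (Dim.m + 1)))).smul h4)

theorem isOpen_ffdom (ρ : ℝ) : IsOpen {q : Fr g × (E2 × E2) | ‖q.2.1‖ < ρ} :=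
  isOpen_lt (by fun_prop) continuous_const

/-- **the right side of the geodesic equation is smooth, with jointly continuous derivatives** -/
theorem jc_ff {ρ : ℝ} (h : TubeR g ρ) : JC (ff g) {q : Fr g × (E2 × E2) | ‖q.2.1‖ < ρ} :=
  jc_of_psm (H := fun q : Fr g × (E2 × E2) => ff g q.1 q.2) (isOpen_ffdom ρ) fun _ hq => psm_ff h hq

/-- the defining relation of `ff` -/
theorem ff_rel (x : Fr g) (s : ℝ) (u p : E2) :
    CH g (x, pk s u) (pk 1 p) (pk 1 p) + pk 0 (ff g (fl g s x) (u, p)) =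
      (CH g (x, pk s u) (pk 1 p) (pk 1 p)) 0 • (pk 1 p : EV (Dim.m + 1)) := by
  rw [CH_pk]
  unfold ff
  simp only
  set C := CH g (fl g s x, pk 0 u) (pk 1 p) (pk 1 p)
  conv_lhs => rw [← H76.pk_tl C, ← H76.pk_add]
  rw [← H76.pk_smul]
  congr 1
  · simp
  · simp

/-- **solutions of the geodesic equation in Fermi coordinates are pregeodesics** -/
theorem pregeo {ρ : ℝ} (h : TubeR g ρ) {x : Fr g} {u p : ℝ → E2} {J : Set ℝ} (hJ : IsOpen J)
    (hu : ∀ s ∈ J, HasDerivAt u (p s) s)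
    (hp : ∀ s ∈ J, HasDerivAt p (ff g (fl g s x) (u s, p s)) s) (hρ : ∀ s ∈ J, ‖u s‖ < ρ)
    {a : M} {s : ℝ} (hs : s ∈ J) (ha : (x, pk s (u s)) ∈ src g a) :
    HasDerivAt (cc (E := EV (Dim.m + 1)) (fun s => Fp g (x, pk s (u s))) a)
      (DF g a (x, pk s (u s)) (pk 1 (p s))) s ∧
    HasDerivAt (deriv (cc (E := EV (Dim.m + 1)) (fun s => Fp g (x, pk s (u s))) a))
      (- chris ((mt g).coef a) (Fc g a (x, pk s (u s))) (DF g a (x, pk s (u s)) (pk 1 (p s)))
        (DF g a (x, pk s (u s)) (pk 1 (p s))) +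
        (CH g (x, pk s (u s)) (pk 1 (p s)) (pk 1 (p s))) 0 •
          DF g a (x, pk s (u s)) (pk 1 (p s))) s := by
  set w : ℝ → EV (Dim.m + 1) := fun s => pk s (u s) with hw
  have hwd : ∀ s ∈ J, HasDerivAt w (pk 1 (p s)) s := fun s hs =>
    pkC.hasFDerivAt.comp_hasDerivAt s ((hasDerivAt_id s).prodMk (hu s hs))
  have hcc : cc (E := EV (Dim.m + 1)) (fun s => Fp g (x, w s)) a = fun s => Fc g a (x, w s) := rfl
  have hd : ∀ s ∈ J, (x, w s) ∈ src g a →
      HasDerivAt (fun s => Fc g a (x, w s)) (DF g a (x, w s) (pk 1 (p s))) s := fun s hs ha =>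
    (hasFDerivAt_Fc ha).comp_hasDerivAt s (hwd s hs)
  refine ⟨by rw [hcc]; exact hd s hs ha, ?_⟩
  have hwc : ContinuousAt (fun s => ((x, w s) : Fr g × EV (Dim.m + 1))) s :=
    continuousAt_const.prodMk (hwd s hs).continuousAt
  have hev : deriv (cc (E := EV (Dim.m + 1)) (fun s => Fp g (x, w s)) a) =ᶠ[𝓝 s]
      fun s => DF g a (x, w s) (pk 1 (p s)) := by
    filter_upwards [hJ.mem_nhds hs, hwc.eventually ((isOpen_src a).mem_nhds ha)] with r hr hr'
    rw [hcc]
    exact (hd r hr hr').deriv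
  refine HasDerivAt.congr_of_eventuallyEq ?_ hev
  have h1 : HasDerivAt (fun s => DF g a (x, w s))
      (fderiv ℝ (fun z => DF g a (x, z)) (w s) (pk 1 (p s))) s :=
    HasFDerivAt.comp_hasDerivAt (l := fun z => DF g a (x, z)) s
      ((sm_DF ha).differentiableAt.hasFDerivAt) (hwd s hs)
  have h2 : HasDerivAt (fun s => (pk 1 (p s) : EV (Dim.m + 1))) (pk 0 (ff g (fl g s x) (u s, p s))) s :=
    pkC.hasFDerivAt.comp_hasDerivAt s ((hasDerivAt_const s (1 : ℝ)).prodMk (hp s hs))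
  have h3 := h1.clm_apply h2
  refine h3.congr_deriv ?_
  have hz : w s ∈ tube ρ := by
    change ‖tl (pk s (u s))‖ < ρ
    rw [H76.tl_pk]
    exact hρ s hs
  have h4 := CH_trans h hz ha (pk 1 (p s)) (pk 1 (p s))
  have h5 := congrArg (DF g a (x, w s)) (ff_rel x s (u s) (p s))
  rw [map_add, map_smul] at h5
  rw [← h5]
  change _ = - chris ((mt g).coef a) (Fc g a (x, w s)) (DF g a (x, w s) (pk 1 (p s)))
        (DF g a (x, w s) (pk 1 (p s))) +
      (DF g a (x, w s) (CH g (x, w s) (pk 1 (p s)) (pk 1 (p s))) + _)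
  rw [h4]
  abel

/-! ### the axis -/

theorem pk_axis (s : ℝ) : (pk s 0 : EV (Dim.m + 1)) = 0 + EuclideanSpace.single 0 s := by
  rw [pk_eq, pk_zero_zero]

theorem Lf_axis' (x : Fr g) (s : ℝ) : Lf g (x, pk s 0) = fl g s x := by
  rw [pk_axis, zero_add, Lf_axis]

theorem mem_src_axis {x : Fr g} {s : ℝ} {a : M}
    (ha : (fl g s x).pt ∈ (chartAt (EV (Dim.m + 1)) a).source) : (x, pk s 0) ∈ src g a := by
  have h1 : Fp g (x, pk s 0) = (fl g s x).pt := by rw [Fp, Lf_axis']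
  simp only [src, mem_ofPred_eq, h1]
  exact ha

theorem DF_axis {a : M} {x : Fr g} {s : ℝ} (ha : (fl g s x).pt ∈ (chartAt (EV (Dim.m + 1)) a).source)
    (v : EV (Dim.m + 1)) : DF g a (x, pk s 0) v = ∑ i, v i • (chF a (fl g s x).1).2 i := by
  rw [pk_axis, DF_shift, DF_zero ha]

/-- **the Christoffel symbols in the direction of the axis vanish on the axis** -/
theorem CH_axis {ρ : ℝ} (h : TubeR g ρ) (x : Fr g) (s : ℝ) (w : EV (Dim.m + 1)) :
    CH g (x, pk s 0) (pk 1 0) w = 0 := by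
  set a := (fl g s x).pt with ha'
  have ha : (fl g s x).pt ∈ (chartAt (EV (Dim.m + 1)) a).source := mem_chart_source _ _
  have hz : (pk s 0 : EV (Dim.m + 1)) ∈ tube ρ := by
    change ‖tl (pk s 0)‖ < ρ
    rw [H76.tl_pk, norm_zero]
    exact h.1
  have hsrc := mem_src_axis ha
  refine (h.DF_injective hz hsrc) ?_
  rw [map_zero, CH_trans h hz hsrc]
  -- the second derivative along the axis
  have h1 : HasDerivAt (fun r : ℝ => (pk r 0 : EV (Dim.m + 1))) (pk 1 0) s :=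
    pkC.hasFDerivAt.comp_hasDerivAt s ((hasDerivAt_id s).prodMk (hasDerivAt_const s (0 : E2)))
  have h2 : HasDerivAt (fun r => DF g a (x, pk r 0) w)
      (fderiv ℝ (fun z => DF g a (x, z)) (pk s 0) (pk 1 0) w) s := by
    have h3 : HasDerivAt (fun r => DF g a (x, pk r 0))
        (fderiv ℝ (fun z => DF g a (x, z)) (pk s 0) (pk 1 0)) s :=
      HasFDerivAt.comp_hasDerivAt (l := fun z => DF g a (x, z)) s
        ((sm_DF hsrc).differentiableAt.hasFDerivAt) h1
    have h4 := h3.clm_apply (hasDerivAt_const s w)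
    simpa using h4
  have hev : (fun r => DF g a (x, pk r 0) w) =ᶠ[𝓝 s]
      fun r => ∑ i, w i • (chF a (fl g r x).1).2 i := by
    have hc : ContinuousAt (fun r => (fl g r x).pt) s :=
      (Fr.continuous_pt.comp (continuous_fl.comp (by fun_prop :
        Continuous fun r : ℝ => ((r, x) : ℝ × Fr g)))).continuousAt
    filter_upwards [hc.eventually ((chartAt (EV (Dim.m + 1)) a).open_source.mem_nhds ha)] with r hr
    exact DF_axis hr w
  have h5 := ((isHorFlow_fl (g := g)).eqn x ha).snd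
  have h6 : ∀ i, HasDerivAt (fun r => (chF a (fl g r x).1).2 i)
      (- chris ((mt g).coef a) (chF a (fl g s x).1).1
        (∑ i, (Pi.single 0 1 : Fin (Dim.m + 1) → ℝ) i • (chF a (fl g s x).1).2 i)
        ((chF a (fl g s x).1).2 i)) s := fun i => (hasDerivAt_pi.1 h5) i
  have h7 : HasDerivAt (fun r => ∑ i, w i • (chF a (fl g r x).1).2 i)
      (∑ i, w i • (- chris ((mt g).coef a) (chF a (fl g s x).1).1
        (∑ i, (Pi.single 0 1 : Fin (Dim.m + 1) → ℝ) i • (chF a (fl g s x).1).2 i)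
        ((chF a (fl g s x).1).2 i))) s := HasDerivAt.fun_sum fun i _ => (h6 i).const_smul (w i)
  have h8 := h2.unique (h7.congr_of_eventuallyEq hev)
  rw [h8, DF_axis ha, DF_axis ha]
  have h9 : Fc g a (x, pk s 0) = (chF a (fl g s x).1).1 := by
    unfold Fc Lc
    rw [Lf_axis']
  rw [h9]
  have h10 : ∑ i, (pk 1 0 : EV (Dim.m + 1)) i • (chF a (fl g s x).1).2 i =
      ∑ i, (Pi.single 0 1 : Fin (Dim.m + 1) → ℝ) i • (chF a (fl g s x).1).2 i := by
    refine Finset.sum_congr rfl fun i _ => ?_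
    congr 1
    refine Fin.cases ?_ (fun j => ?_) i <;> simp [pk]
  rw [h10]
  simp only [← chrisB_apply, map_sum, map_smul, smul_neg, Finset.sum_neg_distrib]
  abel

/-- **the axis is a solution** -/
theorem ff_zero {ρ : ℝ} (h : TubeR g ρ) (x : Fr g) : ff g x 0 = 0 := by
  unfold ff
  have h1 : CH g (x, pk 0 (0 : E2 × E2).1) (pk 1 (0 : E2 × E2).2) (pk 1 (0 : E2 × E2).2) = 0 :=
    CH_axis h x 0 _
  rw [h1]
  have h2 : tl (0 : EV (Dim.m + 1)) = 0 := tlC.map_zero
  rw [h2]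
  simp

end Vale.Agent.P207.N4.H747
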