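import Vale.Agent.P207.N4.Dim
import Vale.Agent.P207.N4.H747.Chr

/-!
# P207, N4: the linearisation of the geodesic equation in Fermi coordinates, every dimension

`RR g x`: the operator `a ↦ R(a, v) v` in the frame `x` (`v` the first vector of the frame) on the
orthogonal plane. `fderiv_ff : fderiv ℝ (ff g x) 0 (a, b) = - RR g x a`. (helper747)
-/

open scoped Manifold ContDiff ENNReal Topology
open Bundle MeasureTheory Set Filter Topology

noncomputable section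

set_option maxSynthPendingDepth 3
set_option linter.unusedSectionVars false

namespace Vale.Agent.P207.N4.H747

open Vale.Agent.P207.N3 Vale.Agent.P207.N3.H747

variable [Dim]

open Vale.Agent.P255 (RMetric coefIn Gam Riem IsGeo Metric Npc ExpSys toMetric geo expg cc trans IsGeodesic coefL chris chrisB IsMetricOn covD chrisB_apply)
open Vale.Agent.P207.Q Vale.Agent.P207.Q.Fl
open Vale.Agent.P207.Q.H545 (Rf Rf_eq)
open Vale.Agent.P207.N4.H76 (pk tl)

variable {M : Type} [TopologicalSpace M] [ChartedSpace (EV (Dim.m + 1)) M] [IsManifold 𝓘(ℝ, EV (Dim.m + 1)) ∞ M]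
  (g : RMetric (EV (Dim.m + 1)) M)

/-- the linear map underlying `RR` -/
def RRl (x : Fr g) : E2 →ₗ[ℝ] E2 where
  toFun a := WithLp.toLp 2 fun j => ∑ i, a i * Rf g x i.succ 0 0 j.succ
  map_add' a b := by
    ext j
    simp only [PiLp.add_apply, add_mul, Finset.sum_add_distrib]
  map_smul' c a := by
    ext j
    simp only [PiLp.smul_apply, smul_eq_mul, RingHom.id_apply, Finset.mul_sum, mul_assoc]

/-- **the curvature operator `a ↦ R(a, v) v` on the orthogonal plane of the frame** -/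
def RR (x : Fr g) : E2 →L[ℝ] E2 := LinearMap.toContinuousLinearMap (RRl g x)

variable {g}

theorem RR_apply (x : Fr g) (a : E2) (j : Fin Dim.m) :
    RR g x a j = ∑ i, a i * Rf g x i.succ 0 0 j.succ := rfl

variable [Nonempty (Fr g)] [CompactSpace M] [T2Space M]

theorem CH_symm {ρ : ℝ} (h : TubeR g ρ) {x : Fr g} {z : EV (Dim.m + 1)} (hz : z ∈ tube ρ) (v w : EV (Dim.m + 1)) :
    CH g (x, z) v w = CH g (x, z) w v := by
  rw [CH_apply, CH_apply]
  exact (h.isMetricOn x).chris_symm hz v w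

theorem mem_tube_axis {ρ : ℝ} (h : TubeR g ρ) (s : ℝ) : (pk s 0 : EV (Dim.m + 1)) ∈ tube ρ := by
  change ‖tl (pk s 0)‖ < ρ
  rw [H76.tl_pk, norm_zero]
  exact h.1

theorem sm_CH {ρ : ℝ} (h : TubeR g ρ) {x : Fr g} {z : EV (Dim.m + 1)} (hz : z ∈ tube ρ) :
    Sm (fun z => CH g (x, z)) z := (psm_CH h (p := (x, z)) hz).slice

/-- the derivative of the Christoffel symbols on the axis is the curvature -/
theorem fderiv_CH_axis {ρ : ℝ} (h : TubeR g ρ) (x : Fr g) (v : EV (Dim.m + 1)) :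
    fderiv ℝ (fun z => CH g (x, z)) (pk 0 0) v (pk 1 0) (pk 1 0) =
      D1.curvT (fun z => GG g (x, z)) (pk 0 0) v (pk 1 0) (pk 1 0) := by
  have hz := mem_tube_axis h 0
  rw [D1.curvT_apply (h.isMetricOn x) hz, (h.isMetricOn x).curv_eq hz]
  have h0 : ∀ s w, chrisB (fun z => GG g (x, z)) (pk s 0) (pk 1 0) w = 0 := fun s w =>
    CH_axis h x s w
  have h0' : ∀ s w, chrisB (fun z => GG g (x, z)) (pk s 0) w (pk 1 0) = 0 := fun s w => by
    have h1 := CH_symm h (mem_tube_axis h s) (x := x) w (pk 1 0)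
    exact h1.trans (h0 s w)
  have h1 : fderiv ℝ (chrisB (fun z => GG g (x, z))) (pk 0 0) (pk 1 0) v (pk 1 0) = 0 := by
    have h2 : HasDerivAt (fun r : ℝ => (pk r 0 : EV (Dim.m + 1))) (pk 1 0) 0 :=
      pkC.hasFDerivAt.comp_hasDerivAt (0 : ℝ) ((hasDerivAt_id (0 : ℝ)).prodMk
        (hasDerivAt_const (0 : ℝ) (0 : E2)))
    have h3 : HasDerivAt (fun r : ℝ => chrisB (fun z => GG g (x, z)) (pk r 0))
        (fderiv ℝ (chrisB (fun z => GG g (x, z))) (pk 0 0) (pk 1 0)) 0 :=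
      HasFDerivAt.comp_hasDerivAt (l := chrisB (fun z => GG g (x, z))) (0 : ℝ)
        ((h.isMetricOn x).differentiableAt_chrisB hz).hasFDerivAt h2
    have h4 := (h3.clm_apply (hasDerivAt_const (0 : ℝ) v)).clm_apply
      (hasDerivAt_const (0 : ℝ) (pk 1 0 : EV (Dim.m + 1)))
    simp only [map_zero, add_zero] at h4
    have h5 : (fun r : ℝ => chrisB (fun z => GG g (x, z)) (pk r 0) v (pk 1 0)) = fun _ => 0 := by
      funext r
      exact h0' r v
    rw [h5] at h4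
    exact h4.unique (hasDerivAt_const (0 : ℝ) (0 : EV (Dim.m + 1)))
  rw [h1, h0 0 (pk 1 0), h0' 0 v, map_zero, map_zero]
  change fderiv ℝ (chrisB (fun z => GG g (x, z))) (pk 0 0) v (pk 1 0) (pk 1 0) = _
  abel

/-- the curvature on the axis in terms of the frame -/
theorem curvT_axis {ρ : ℝ} (h : TubeR g ρ) (x : Fr g) (v : EV (Dim.m + 1)) (j : Fin (Dim.m + 1)) :
    D1.curvT (fun z => GG g (x, z)) (pk 0 0) v (pk 1 0) (pk 1 0) j =
      ∑ i, v i * Rf g x i 0 0 j := by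
  have hz := mem_tube_axis h 0
  set a := x.pt with ha'
  have ha : x.pt ∈ (chartAt (EV (Dim.m + 1)) a).source := mem_chart_source _ _
  have ha0 : (fl g 0 x).pt ∈ (chartAt (EV (Dim.m + 1)) a).source := by rw [fl_zero]; exact ha
  have hsrc : (x, (pk 0 0 : EV (Dim.m + 1))) ∈ src g a := mem_src_axis ha0
  have hc : ContinuousAt (fun z : EV (Dim.m + 1) => ((x, z) : Fr g × EV (Dim.m + 1))) (pk 0 0) := by fun_prop
  have hev := hc.eventually ((isOpen_src a).mem_nhds hsrc)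
  have key := D1.curvT_trans (h.isMetricOn x) ((mt g).isMetricOn a)
    (τ := fun z => Fc g a (x, z)) hz (hev.mono fun w hw => mem_target hw)
    (hev.mono fun w hw => (sm_Fc hw).contDiffAt) (eventually_iso hsrc) v (pk 1 0) (pk 1 0)
  have h1 : inner ℝ (D1.curvT (fun z => GG g (x, z)) (pk 0 0) v (pk 1 0) (pk 1 0))
      (EuclideanSpace.single j (1 : ℝ)) =
      (mt g).coef a (Fc g a (x, pk 0 0))
        (DF g a (x, pk 0 0) (D1.curvT (fun z => GG g (x, z)) (pk 0 0) v (pk 1 0) (pk 1 0)))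
        (DF g a (x, pk 0 0) (EuclideanSpace.single j (1 : ℝ))) := by
    rw [← GG_apply hsrc, pk_zero_zero, GG_zero]
  have h2 : inner ℝ (D1.curvT (fun z => GG g (x, z)) (pk 0 0) v (pk 1 0) (pk 1 0))
      (EuclideanSpace.single j (1 : ℝ)) =
      D1.curvT (fun z => GG g (x, z)) (pk 0 0) v (pk 1 0) (pk 1 0) j := by
    rw [EuclideanSpace.inner_single_right]
    simp
  rw [← h2, h1]
  change (mt g).coef a (Fc g a (x, pk 0 0))
    (fderiv ℝ (fun z => Fc g a (x, z)) (pk 0 0) _) _ = _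
  rw [key]
  change (mt g).coef a (Fc g a (x, pk 0 0))
    (D1.curvT ((mt g).coef a) (Fc g a (x, pk 0 0)) (DF g a (x, pk 0 0) v)
      (DF g a (x, pk 0 0) (pk 1 0)) (DF g a (x, pk 0 0) (pk 1 0))) _ = _
  have h3 : Fc g a (x, pk 0 0) = (chF a x.1).1 := by
    unfold Fc Lc
    rw [Lf_axis', fl_zero]
  have h4 : DF g a (x, pk 0 0) (pk 1 0) = (chF a x.1).2 0 := by
    rw [DF_axis ha0, fl_zero]
    simp [Fin.sum_univ_succ, pk]
  have h5 : DF g a (x, pk 0 0) (EuclideanSpace.single j (1 : ℝ)) = (chF a x.1).2 j := by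
    rw [DF_axis ha0, fl_zero]
    simp [PiLp.single_apply]
  have h6 : DF g a (x, pk 0 0) v = ∑ i, v i • (chF a x.1).2 i := by
    rw [DF_axis ha0, fl_zero]
  rw [h3, h4, h5, h6]
  simp only [map_sum, map_smul, sum_apply, smul_apply, smul_eq_mul]
  refine Finset.sum_congr rfl fun i _ => ?_
  rw [Rf_eq x i 0 0 j ha]

theorem pk_head (s : ℝ) (u : E2) : (pk s u : EV (Dim.m + 1)) 0 = s := rfl

/-- **the linearised equation is the Jacobi equation** -/
theorem fderiv_ff {ρ : ℝ} (h : TubeR g ρ) (x : Fr g) (a b : E2) :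
    fderiv ℝ (ff g x) 0 (a, b) = - RR g x a := by
  have hz := mem_tube_axis h 0
  have h1 : HasFDerivAt (fun q : E2 × E2 => (pk 0 q.1 : EV (Dim.m + 1)))
      (pkC.comp ((0 : E2 × E2 →L[ℝ] ℝ).prod (ContinuousLinearMap.fst ℝ E2 E2))) 0 :=
    (pkC.comp ((0 : E2 × E2 →L[ℝ] ℝ).prod (ContinuousLinearMap.fst ℝ E2 E2))).hasFDerivAt
  have h2 : HasFDerivAt (fun q : E2 × E2 => (pk 1 q.2 : EV (Dim.m + 1)))
      (pkC.comp ((0 : E2 × E2 →L[ℝ] ℝ).prod (ContinuousLinearMap.snd ℝ E2 E2))) 0 :=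
    pkC.hasFDerivAt.comp (0 : E2 × E2) ((hasFDerivAt_const (1 : ℝ) (0 : E2 × E2)).prodMk
      (ContinuousLinearMap.snd ℝ E2 E2).hasFDerivAt)
  have h3 : HasFDerivAt (fun q : E2 × E2 => CH g (x, pk 0 q.1))
      ((fderiv ℝ (fun z => CH g (x, z)) (pk 0 0)).comp
        (pkC.comp ((0 : E2 × E2 →L[ℝ] ℝ).prod (ContinuousLinearMap.fst ℝ E2 E2)))) 0 :=
    HasFDerivAt.comp (g := fun z => CH g (x, z)) (f := fun q : E2 × E2 => (pk 0 q.1 : EV (Dim.m + 1)))
      (0 : E2 × E2) (sm_CH h hz).differentiableAt.hasFDerivAt h1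
  have h4 := (h3.clm_apply h2).clm_apply h2
  have h5 : HasFDerivAt (fun q : E2 × E2 =>
      (CH g (x, pk 0 q.1) (pk 1 q.2) (pk 1 q.2)) 0 • q.2) _ 0 :=
    ((EuclideanSpace.proj (𝕜 := ℝ) (0 : Fin (Dim.m + 1))).hasFDerivAt.comp (0 : E2 × E2) h4).smul
      (ContinuousLinearMap.snd ℝ E2 E2).hasFDerivAt
  have h6 : HasFDerivAt (fun q : E2 × E2 => -tl (CH g (x, pk 0 q.1) (pk 1 q.2) (pk 1 q.2))) _ 0 :=
    (tlC.hasFDerivAt.comp (0 : E2 × E2) h4).neg
  have h7 : HasFDerivAt (ff g x) _ 0 := h6.add h5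
  rw [h7.fderiv]
  have h0 : ∀ w, CH g (x, pk 0 (0 : E2 × E2).1) (pk 1 0) w = 0 := fun w => CH_axis h x 0 w
  have h0' : ∀ w, CH g (x, pk 0 (0 : E2 × E2).1) w (pk 1 0) = 0 := fun w => by
    have h1 := CH_symm h hz (x := x) w (pk 1 0)
    exact h1.trans (h0 w)
  have e1 : (pkC.comp ((0 : E2 × E2 →L[ℝ] ℝ).prod (ContinuousLinearMap.fst ℝ E2 E2))) (a, b) =
    (pk 0 a : EV (Dim.m + 1)) := rfl
  have e2 : (pk 1 (0 : E2 × E2).2 : EV (Dim.m + 1)) = pk 1 0 := rfl
  simp only [add_apply, neg_apply, ContinuousLinearMap.comp_apply, ContinuousLinearMap.flip_apply,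
    smul_apply, ContinuousLinearMap.smulRight_apply, e2, h0, h0', Function.comp_apply]
  simp only [map_zero, add_zero, zero_add, zero_smul, smul_zero, Prod.snd_zero]
  have e3 := fderiv_CH_axis h x (pk 0 a)
  rw [neg_inj]
  refine (congrArg tlC e3).trans ?_
  have e4 : ∀ (v : EV (Dim.m + 1)) (j : Fin Dim.m), tlC v j = v j.succ := by
    intro v j
    rfl
  ext j
  rw [e4, curvT_axis h, RR_apply, Fin.sum_univ_succ]
  simp only [pk_head, H76.pk_succ, zero_mul, zero_add]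

end Vale.Agent.P207.N4.H747
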